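import Vale.Agent.P157.Small.Main
import Vale.Agent.P157.Strict

/-!
Every even potential with a nonzero second Hermite coefficient qualifies.
-/

namespace Vale.Agent.P157.Small

open MeasureTheory ProbabilityTheory Filter
open scoped Topology ENNReal Nat

variable {ν : Measure (ℝ × ℝ)} [IsFiniteMeasure ν]

/-- The phase weight of an even potential. -/
noncomputable def evenCoeff (ν : Measure (ℝ × ℝ)) (k : ℕ) : ℝ :=
  ∫ p, p.1 ^ k * (Real.cos p.2 * Real.exp (-p.1 ^ 2 / 2)) ∂ν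

lemma integrable_bdd {g : ℝ × ℝ → ℝ} (hg : Continuous g) {C : ℝ} (h : ∀ p, |g p| ≤ C) :
    Integrable g ν :=
  Integrable.mono' (integrable_const C) hg.aestronglyMeasurable
    (Filter.Eventually.of_forall fun p => (Real.norm_eq_abs _).trans_le (h p))

lemma abs_cos_cos_le (a b : ℝ) : |Real.cos a * Real.cos b| ≤ 1 := by
  rw [abs_mul]
  exact mul_le_one₀ (Real.abs_cos_le_one a) (abs_nonneg _) (Real.abs_cos_le_one b)

lemma even_rep (heven : ∀ x, trigPot ν (-x) = trigPot ν x) (x : ℝ) :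
    trigPot ν x = ∫ p, Real.cos p.2 * Real.cos (p.1 * x) ∂ν := by
  have hi : ∀ y : ℝ, Integrable (fun p : ℝ × ℝ => Real.cos (p.1 * y + p.2)) ν := fun y =>
    integrable_bdd (by fun_prop) fun p => Real.abs_cos_le_one _
  have h : 2 * trigPot ν x = 2 * ∫ p, Real.cos p.2 * Real.cos (p.1 * x) ∂ν := by
    nth_rewrite 1 [two_mul]
    nth_rewrite 2 [← heven x]
    simp only [trigPot]
    rw [← integral_add (hi x) (hi (-x)), ← integral_const_mul]
    refine integral_congr_ae (Filter.Eventually.of_forall fun p => ?_)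
    simp only [mul_neg, Real.cos_add, Real.cos_neg, Real.sin_neg]
    ring
  linarith

lemma integral_sq_sub_one_trigPot (heven : ∀ x, trigPot ν (-x) = trigPot ν x) :
    ∫ z, (z ^ 2 - 1) * trigPot ν z ∂gaussianReal 0 1 = -evenCoeff ν 2 := by
  have hz : Integrable (fun z : ℝ => z ^ 2 - 1) (gaussianReal 0 1) :=
    ((IsGaussian.memLp_id (gaussianReal 0 1) 2 (by simp)).integrable_sq).sub (integrable_const 1)
  have hin : Integrable (Function.uncurry fun (z : ℝ) (p : ℝ × ℝ) =>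
      (z ^ 2 - 1) * (Real.cos p.2 * Real.cos (p.1 * z))) ((gaussianReal 0 1).prod ν) := by
    refine Integrable.mono' (hz.abs.mul_prod (integrable_const (1 : ℝ) (μ := ν)))
      (Continuous.aestronglyMeasurable (by simp only [Function.uncurry_def]; fun_prop))
      (Filter.Eventually.of_forall fun z => ?_)
    rw [Function.uncurry, Real.norm_eq_abs, abs_mul, mul_one]
    exact mul_le_of_le_one_right (abs_nonneg _) (abs_cos_cos_le _ _)
  have hpot : trigPot ν = fun x => ∫ p, Real.cos p.2 * Real.cos (p.1 * x) ∂ν := funext (even_rep heven)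
  simp only [hpot, ← integral_const_mul]
  rw [integral_integral_swap hin, evenCoeff, ← integral_neg]
  refine integral_congr_ae (Filter.Eventually.of_forall fun p => ?_)
  simp only [mul_left_comm _ (Real.cos p.2)]
  rw [integral_const_mul, integral_sq_sub_one_cos]
  ring

lemma gauss_pair {q : ℝ} (hq : q ∈ Set.Icc (-1 : ℝ) 1) (t s : ℝ) :
    ∫ p : ℝ × ℝ, Real.cos (t * p.1) * Real.cos (s * (q * p.1 + Real.sqrt (1 - q ^ 2) * p.2))
        ∂(gaussianReal 0 1).prod (gaussianReal 0 1) =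
      Real.exp (-t ^ 2 / 2) * Real.exp (-s ^ 2 / 2) * Real.cosh (q * t * s) := by
  set r := Real.sqrt (1 - q ^ 2)
  have hr2 : r ^ 2 = 1 - q ^ 2 := Real.sq_sqrt (by nlinarith [hq.1, hq.2])
  have hc : ∀ a b : ℝ, ∫ p : ℝ × ℝ, Real.cos (a * p.1 + b * p.2)
      ∂(gaussianReal 0 1).prod (gaussianReal 0 1) = Real.exp (-(a ^ 2 + b ^ 2) / 2) := fun a b => by
    have h : ∫ p : ℝ × ℝ, Complex.exp ((a * p.1 + b * p.2 : ℝ) * Complex.I)
        ∂(gaussianReal 0 1).prod (gaussianReal 0 1) = (Real.exp (-(a ^ 2 + b ^ 2) / 2) : ℂ) := by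
      have e : ∀ p : ℝ × ℝ, Complex.exp ((a * p.1 + b * p.2 : ℝ) * Complex.I) =
          Complex.exp ((a * p.1 : ℝ) * Complex.I) * Complex.exp ((b * p.2 : ℝ) * Complex.I) := fun p => by
        rw [← Complex.exp_add]; push_cast; ring_nf
      simp only [e]
      rw [integral_prod_mul (fun z : ℝ => Complex.exp ((a * z : ℝ) * Complex.I))
        (fun z : ℝ => Complex.exp ((b * z : ℝ) * Complex.I)), integral_cexp_gaussian,
        integral_cexp_gaussian, ← Complex.exp_add, Complex.ofReal_exp]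
      congr 1
      push_cast
      ring
    have hi : Integrable (fun p : ℝ × ℝ => Complex.exp ((a * p.1 + b * p.2 : ℝ) * Complex.I))
        ((gaussianReal 0 1).prod (gaussianReal 0 1)) :=
      Integrable.mono' (integrable_const (1 : ℝ)) (Continuous.aestronglyMeasurable (by fun_prop))
        (Filter.Eventually.of_forall fun z => by simp [Complex.norm_exp])
    have hre := (Complex.reCLM.integral_comp_comm hi)
    simp only [Complex.reCLM_apply, Complex.exp_ofReal_mul_I_re] at hre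
    rw [hre, h, Complex.ofReal_re]
  have hb : ∀ a b : ℝ, Integrable (fun p : ℝ × ℝ => Real.cos (a * p.1 + b * p.2))
      ((gaussianReal 0 1).prod (gaussianReal 0 1)) := fun a b =>
    Integrable.mono' (integrable_const (1 : ℝ)) (Continuous.aestronglyMeasurable (by fun_prop))
      (Filter.Eventually.of_forall fun p => by simpa using Real.abs_cos_le_one _)
  have e : ∀ p : ℝ × ℝ, Real.cos (t * p.1) * Real.cos (s * (q * p.1 + r * p.2)) =
      (Real.cos ((t + s * q) * p.1 + s * r * p.2) + Real.cos ((t - s * q) * p.1 + -(s * r) * p.2)) / 2 :=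
    fun p => by
    rw [show (t + s * q) * p.1 + s * r * p.2 = t * p.1 + s * (q * p.1 + r * p.2) by ring,
      show (t - s * q) * p.1 + -(s * r) * p.2 = t * p.1 - s * (q * p.1 + r * p.2) by ring,
      Real.cos_add, Real.cos_sub]
    ring
  simp only [e]
  rw [integral_div, integral_add (hb _ _) (hb _ _), hc, hc, Real.cosh_eq, neg_sq (s * r)]
  have h1 : -((t + s * q) ^ 2 + (s * r) ^ 2) / 2 = -t ^ 2 / 2 + -s ^ 2 / 2 + -(q * t * s) := by
    linear_combination (-(s ^ 2) / 2) * hr2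
  have h2 : -((t - s * q) ^ 2 + (s * r) ^ 2) / 2 = -t ^ 2 / 2 + -s ^ 2 / 2 + q * t * s := by
    linear_combination (-(s ^ 2) / 2) * hr2
  rw [h1, h2, Real.exp_add, Real.exp_add, Real.exp_add, Real.exp_add]
  ring

lemma damped_cosh_le {q : ℝ} (hq : q ∈ Set.Icc (-1 : ℝ) 1) (t s : ℝ) :
    Real.exp (-t ^ 2 / 2) * Real.exp (-s ^ 2 / 2) * Real.cosh (q * t * s) ≤ 1 := by
  have hts : |q * t * s| ≤ (t ^ 2 + s ^ 2) / 2 := by
    rw [mul_assoc, abs_mul]
    refine (mul_le_of_le_one_left (abs_nonneg _) (abs_le.2 hq)).trans ?_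
    rw [abs_le]
    constructor <;> nlinarith [sq_nonneg (t + s), sq_nonneg (t - s)]
  obtain ⟨h1, h2⟩ := abs_le.1 hts
  rw [Real.cosh_eq, mul_div_assoc', mul_add, ← Real.exp_add, ← Real.exp_add, ← Real.exp_add]
  have a1 : Real.exp (-t ^ 2 / 2 + -s ^ 2 / 2 + q * t * s) ≤ 1 := Real.exp_le_one_iff.2 (by linarith)
  have a2 : Real.exp (-t ^ 2 / 2 + -s ^ 2 / 2 + -(q * t * s)) ≤ 1 := Real.exp_le_one_iff.2 (by linarith)
  linarith

lemma hasSum_corr_even (heven : ∀ x, trigPot ν (-x) = trigPot ν x) {q : ℝ}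
    (hq : q ∈ Set.Icc (-1 : ℝ) 1) :
    HasSum (fun k : ℕ => evenCoeff ν (2 * k) ^ 2 / (2 * k)! * q ^ (2 * k)) (corr (trigPot ν) q) := by
  set w : ℝ × ℝ → ℝ := fun p => Real.cos p.2 * Real.exp (-p.1 ^ 2 / 2) with hw
  set T : ℕ → (ℝ × ℝ) × ℝ × ℝ → ℝ :=
    fun k z => w z.1 * w z.2 * ((q * z.1.1 * z.2.1) ^ (2 * k) / (2 * k)!) with hT
  have hcorr : corr (trigPot ν) q =
      ∫ z : (ℝ × ℝ) × ℝ × ℝ, w z.1 * w z.2 * Real.cosh (q * z.1.1 * z.2.1) ∂ν.prod ν := by
    set r := Real.sqrt (1 - q ^ 2) with hr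
    set K : ℝ × ℝ → (ℝ × ℝ) × ℝ × ℝ → ℝ := fun g z => (Real.cos z.1.2 * Real.cos (z.1.1 * g.1)) *
      (Real.cos z.2.2 * Real.cos (z.2.1 * (q * g.1 + r * g.2))) with hK
    have hp : ∀ g : ℝ × ℝ, trigPot ν g.1 * trigPot ν (q * g.1 + r * g.2) = ∫ z, K g z ∂ν.prod ν := fun g => by
      rw [even_rep heven, even_rep heven, ← integral_prod_mul]
    simp only [corr, ← hr, hp]
    rw [integral_integral_swap]
    · refine integral_congr_ae (Filter.Eventually.of_forall fun z => ?_)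
      have e : ∀ g : ℝ × ℝ, K g z = (Real.cos z.1.2 * Real.cos z.2.2) *
          (Real.cos (z.1.1 * g.1) * Real.cos (z.2.1 * (q * g.1 + r * g.2))) := fun g => by
        simp only [hK]; ring
      simp only [e]
      rw [integral_const_mul, hr, gauss_pair hq]
      simp only [hw]
      ring
    · refine Integrable.mono' (integrable_const (1 : ℝ))
        (Continuous.aestronglyMeasurable (by simp only [hK, Function.uncurry_def]; fun_prop))
        (Filter.Eventually.of_forall fun p => ?_)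
      simp only [hK, Function.uncurry, Real.norm_eq_abs]
      rw [abs_mul]
      exact mul_le_one₀ (abs_cos_cos_le _ _) (abs_nonneg _) (abs_cos_cos_le _ _)
  rw [hcorr]
  have hval : ∀ k, ∫ z, T k z ∂ν.prod ν = evenCoeff ν (2 * k) ^ 2 / (2 * k)! * q ^ (2 * k) := fun k => by
    have e : ∀ z : (ℝ × ℝ) × ℝ × ℝ, T k z = q ^ (2 * k) / (2 * k)! *
        ((z.1.1 ^ (2 * k) * w z.1) * (z.2.1 ^ (2 * k) * w z.2)) := fun z => by
      simp only [hT, mul_pow]; ring
    simp only [e]
    rw [integral_const_mul, integral_prod_mul (fun p : ℝ × ℝ => p.1 ^ (2 * k) * w p)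
      (fun p : ℝ × ℝ => p.1 ^ (2 * k) * w p)]
    simp only [evenCoeff, hw]
    ring
  simp only [← hval]
  refine hasSum_integral_of_dominated_convergence
    (fun k z => Real.exp (-z.1.1 ^ 2 / 2) * Real.exp (-z.2.1 ^ 2 / 2) *
      ((q * z.1.1 * z.2.1) ^ (2 * k) / (2 * k)!))
    (fun k => Continuous.aestronglyMeasurable (by simp only [hT, hw]; fun_prop))
    (fun k => Filter.Eventually.of_forall fun z => ?_)
    (Filter.Eventually.of_forall fun z => ((Real.hasSum_cosh _).mul_left _).summable)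
    ?_ (Filter.Eventually.of_forall fun z => (Real.hasSum_cosh _).mul_left _)
  · have h0 : 0 ≤ (q * z.1.1 * z.2.1) ^ (2 * k) / ((2 * k)! : ℝ) :=
      div_nonneg (by rw [pow_mul]; positivity) (by positivity)
    simp only [hT, hw, Real.norm_eq_abs, abs_mul, Real.abs_exp, abs_of_nonneg h0]
    refine mul_le_mul_of_nonneg_right (mul_le_mul ?_ ?_ (by positivity) (Real.exp_pos _).le) h0
    · exact mul_le_of_le_one_left (Real.exp_pos _).le (Real.abs_cos_le_one _)
    · exact mul_le_of_le_one_left (Real.exp_pos _).le (Real.abs_cos_le_one _)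
  · refine Integrable.mono' (integrable_const (1 : ℝ)) ?_ (Filter.Eventually.of_forall fun z => ?_)
    · have e : (fun z : (ℝ × ℝ) × ℝ × ℝ => ∑' k : ℕ, Real.exp (-z.1.1 ^ 2 / 2) *
          Real.exp (-z.2.1 ^ 2 / 2) * ((q * z.1.1 * z.2.1) ^ (2 * k) / (2 * k)!)) =
          fun z => Real.exp (-z.1.1 ^ 2 / 2) * Real.exp (-z.2.1 ^ 2 / 2) *
            Real.cosh (q * z.1.1 * z.2.1) :=
        funext fun z => ((Real.hasSum_cosh _).mul_left _).tsum_eq
      rw [e]
      exact Continuous.aestronglyMeasurable (by fun_prop)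
    · rw [((Real.hasSum_cosh _).mul_left _).tsum_eq, Real.norm_eq_abs,
        abs_of_nonneg (mul_nonneg (by positivity) (Real.cosh_pos _).le)]
      exact damped_cosh_le hq _ _

lemma convexOn_corr_even (heven : ∀ x, trigPot ν (-x) = trigPot ν x) :
    ConvexOn ℝ (Set.Icc (-1 : ℝ) 1)
      fun q => corr (trigPot ν) q - evenCoeff ν 2 ^ 2 * q ^ 2 / 2 := by
  set d : ℝ → ℕ → ℝ := fun q k =>
    evenCoeff ν (2 * k) ^ 2 / (2 * k)! * q ^ (2 * k) -
      if k = 1 then evenCoeff ν 2 ^ 2 * q ^ 2 / 2 else 0 with hd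
  have hsum : ∀ q ∈ Set.Icc (-1 : ℝ) 1,
      HasSum (d q) (corr (trigPot ν) q - evenCoeff ν 2 ^ 2 * q ^ 2 / 2) := fun q hq =>
    (hasSum_corr_even heven hq).sub (hasSum_ite_eq 1 _)
  have hterm : ∀ k, ∃ C, 0 ≤ C ∧ ∀ q, d q k = C * q ^ (2 * k) := fun k => by
    by_cases h : k = 1
    · refine ⟨0, le_rfl, fun q => ?_⟩
      subst h
      simp [hd]
      ring
    · exact ⟨evenCoeff ν (2 * k) ^ 2 / (2 * k)!, by positivity, fun q => by simp [hd, h]⟩
  refine ⟨convex_Icc _ _, fun x hx y hy a b ha hb hab => ?_⟩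
  have hz := convex_Icc (-1 : ℝ) 1 hx hy ha hb hab
  simp only [smul_eq_mul] at hz ⊢
  refine hasSum_le (fun k => ?_) (hsum _ hz) (((hsum x hx).mul_left a).add ((hsum y hy).mul_left b))
  obtain ⟨C, hC, hk⟩ := hterm k
  have h := ((even_two_mul k).convexOn_pow (𝕜 := ℝ)).2 (Set.mem_univ x) (Set.mem_univ y) ha hb hab
  simp only [smul_eq_mul] at h
  rw [hk, hk, hk]
  nlinarith [mul_le_mul_of_nonneg_left h hC]

/-- For every even potential of the class with `E (G² - 1) h(G) ≠ 0` there is a positive threshold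
below which the limit exists at every density. -/
theorem exists_threshold_even (hν : Integrable (fun p : ℝ × ℝ => p.1 ^ 2) ν)
    (heven : ∀ x, trigPot ν (-x) = trigPot ν x)
    (hb : ∫ z, (z ^ 2 - 1) * trigPot ν z ∂gaussianReal 0 1 ≠ 0) :
    ∃ ε0, 0 < ε0 ∧ ∀ ε, |ε| ≤ ε0 → ∀ α : ℝ, 0 < α →
      let f := fun x => Real.log (1 + ε * trigPot ν x)
      (∃ p, Tendsto (fun N : ℕ => cubePressure f N ⌊α * N⌋₊) atTop (𝓝 p) ∧
        IsLUB (Set.range fun N : ℕ => poissonMean (α * (N + 1)) (cubePressure f (N + 1))) p) ∧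
      ∃ p, Tendsto (fun N : ℕ => spherePressure f N ⌊α * N⌋₊) atTop (𝓝 p) ∧
        IsLUB (Set.range fun N : ℕ => poissonMean (α * (N + 1)) (spherePressure f (N + 1))) p := by
  rw [integral_sq_sub_one_trigPot heven, ne_eq, neg_eq_zero] at hb
  set c := evenCoeff ν 2 ^ 2 with hc
  have hc0 : 0 < c := lt_of_le_of_ne (sq_nonneg _) (Ne.symm (pow_ne_zero 2 hb))
  set m := ν.real Set.univ
  set M := ∫ p : ℝ × ℝ, p.1 ^ 2 ∂ν
  have hm : 0 ≤ m := measureReal_nonneg
  refine ⟨min (1 / (6 * m + 1)) (c / (27 * m * M ^ 2 + 1)),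
    lt_min (by positivity) (by positivity), fun ε hε α hα => ?_⟩
  have e1 := (le_div_iff₀ (by positivity)).1 (hε.trans (min_le_left _ _))
  have e2 := (le_div_iff₀ (by positivity)).1 (hε.trans (min_le_right _ _))
  have h0 := abs_nonneg ε
  exact exists_limit_small hν (convexOn_corr_even heven) (by nlinarith) (by nlinarith) hα

end Vale.Agent.P157.Small
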