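import Vale.Agent.P157.Small.Gap
import Vale.Agent.P157.Super

/-!
The one-pattern block inequality for small trigonometric perturbations.
-/

namespace Vale.Agent.P157.Small

open MeasureTheory ProbabilityTheory
open scoped RealInnerProductSpace

/-- `exp f = a - V`, `V` a trigonometric potential, with the convexity of the two-replica term
dominating all higher ones. -/
structure SKer (f : ℝ → ℝ) (a c : ℝ) (ν : Measure (ℝ × ℝ)) : Prop where
  fin : IsFiniteMeasure ν
  symm : ν.map Neg.neg = ν
  sq : Integrable (fun p : ℝ × ℝ => p.1 ^ 2) ν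
  pos : 0 < a
  small : 6 * ν.real Set.univ ≤ a
  eq : ∀ x, Real.exp (f x) = a - trigPot ν x
  conv : ConvexOn ℝ (Set.Icc (-1 : ℝ) 1) fun q => corr (trigPot ν) q - c * q ^ 2 / 2
  key : 27 * ν.real Set.univ * (∫ p, p.1 ^ 2 ∂ν) ^ 2 ≤ a * c

variable {f : ℝ → ℝ} {a c : ℝ} {ν : Measure (ℝ × ℝ)}

lemma SKer.pot (hk : SKer f a c ν) :
    Pot f (|Real.log (5 / 6 * a)| + |Real.log (7 / 6 * a)|) where
  meas := by
    have := hk.fin
    have e : f = fun x => Real.log (a - trigPot ν x) := funext fun x => by rw [← hk.eq, Real.log_exp]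
    rw [e]
    exact (continuous_trigPot.measurable.const_sub a).log
  bound x := by
    have := hk.fin
    obtain ⟨h1, h2⟩ := abs_le.1 (abs_trigPot_le (ν := ν) x)
    have hs := hk.small
    have ha := hk.pos
    have e : f x = Real.log (a - trigPot ν x) := by rw [← hk.eq, Real.log_exp]
    rw [e, abs_le]
    have l1 := Real.log_le_log (by linarith : (0 : ℝ) < 5 / 6 * a)
      (show 5 / 6 * a ≤ a - trigPot ν x by linarith)
    have l2 := Real.log_le_log (by linarith : (0 : ℝ) < a - trigPot ν x)
      (show a - trigPot ν x ≤ 7 / 6 * a by linarith)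
    constructor <;>
      linarith [neg_abs_le (Real.log (5 / 6 * a)), le_abs_self (Real.log (7 / 6 * a)),
        abs_nonneg (Real.log (5 / 6 * a)), abs_nonneg (Real.log (7 / 6 * a))]

variable {X : Type} [MeasurableSpace X] {E : Type} [NormedAddCommGroup E] [InnerProductSpace ℝ E]
  [FiniteDimensional ℝ E] [MeasurableSpace E] [BorelSpace E] {ρ : Measure X} [IsProbabilityMeasure ρ]
  {v : X → E}

/-- The replica moment of order `n` of one pattern. -/
noncomputable def repMom (ρ : Measure X) (ν : Measure (ℝ × ℝ)) (v : X → E) (n : ℕ) : ℝ :=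
  ∫ x, trigMom ν (fun i => v (x i)) ∂Measure.pi fun _ : Fin n => ρ

lemma measurable_trigMom [IsFiniteMeasure ν] (hv : Measurable v) (n : ℕ) :
    Measurable fun x : Fin n → X => trigMom ν fun i => v (x i) := by
  have h : Measurable fun z : (Fin n → X) × (Fin n → ℝ × ℝ) => Real.cos (∑ i, (z.2 i).2) *
      Real.exp (-(‖∑ i, (z.2 i).1 • v (z.1 i)‖ ^ 2 / 2)) := by fun_prop
  exact (h.stronglyMeasurable.integral_prod_right' (ν := Measure.pi fun _ : Fin n => ν)).measurable

lemma integrable_trigMom [IsFiniteMeasure ν] (hv : Measurable v) (n : ℕ) :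
    Integrable (fun x : Fin n → X => trigMom ν fun i => v (x i)) (Measure.pi fun _ : Fin n => ρ) :=
  Integrable.mono' (integrable_const ((Measure.pi fun _ : Fin n => ν).real Set.univ))
    (measurable_trigMom hv n).aestronglyMeasurable (Filter.Eventually.of_forall fun x => by
      refine (norm_integral_le_of_norm_le_const (C := 1) (Filter.Eventually.of_forall fun y => ?_)).trans
        (by rw [one_mul])
      rw [Real.norm_eq_abs, abs_mul, Real.abs_exp]
      exact mul_le_one₀ (Real.abs_cos_le_one _) (Real.exp_pos _).le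
        (Real.exp_le_one_iff.2 (by linarith [sq_nonneg ‖∑ i, (y i).1 • v (x i)‖])))

lemma integral_pow_eq_repMom [IsFiniteMeasure ν] (hsym : ν.map Neg.neg = ν) (hv : Measurable v)
    (n : ℕ) : ∫ g, (∫ x, trigPot ν ⟪g, v x⟫ ∂ρ) ^ n ∂stdGaussian E = repMom ρ ν v n := by
  have e : ∀ g : E, (∫ x, trigPot ν ⟪g, v x⟫ ∂ρ) ^ n =
      ∫ x, ∏ i, trigPot ν ⟪g, v (x i)⟫ ∂Measure.pi fun _ : Fin n => ρ := fun g => by
    rw [integral_fintype_prod_eq_prod (μ := fun _ : Fin n => ρ)
      (fun (_ : Fin n) (x : X) => trigPot ν ⟪g, v x⟫), Finset.prod_const, Finset.card_univ,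
      Fintype.card_fin]
  simp only [e]
  rw [integral_integral_swap]
  · exact integral_congr_ae (Filter.Eventually.of_forall fun x =>
      integral_prod_inner hsym fun i => v (x i))
  · refine Integrable.mono' (integrable_const (ν.real Set.univ ^ n)) ?_
      (Filter.Eventually.of_forall fun z => ?_)
    · exact (Finset.measurable_prod _ fun i _ => continuous_trigPot.measurable.comp
        (measurable_fst.inner (hv.comp ((measurable_pi_apply i).comp measurable_snd)))).aestronglyMeasurable
    · rw [Function.uncurry, Real.norm_eq_abs, Finset.abs_prod]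
      exact (Finset.prod_le_prod (fun i _ => abs_nonneg _) fun i _ => abs_trigPot_le _).trans_eq
        (by simp)

/-- The replica series of one pattern. -/
lemma hasSum_repMom (hk : SKer f a c ν) (hv : Measurable v) :
    HasSum (fun n : ℕ => repMom ρ ν v (n + 1) / (((n : ℝ) + 1) * a ^ (n + 1)))
      (Real.log a - ∫ g, Real.log (∫ x, Real.exp (f ⟪g, v x⟫) ∂ρ) ∂stdGaussian E) := by
  have := hk.fin
  have ha := hk.pos
  set m : E → ℝ := fun g => ∫ x, trigPot ν ⟪g, v x⟫ ∂ρ with hm
  set r := ν.real Set.univ / a with hr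
  have hlt : ν.real Set.univ < a := by linarith [hk.small, measureReal_nonneg (μ := ν) (s := Set.univ)]
  have hr1 : r < 1 := (div_lt_one ha).2 hlt
  have hr0 : 0 ≤ r := div_nonneg measureReal_nonneg ha.le
  have hmb : ∀ g, |m g| ≤ ν.real Set.univ := fun g => by
    rw [← Real.norm_eq_abs]
    refine (norm_integral_le_of_norm_le_const (μ := ρ) (C := ν.real Set.univ)
      (Filter.Eventually.of_forall fun x =>
        (Real.norm_eq_abs _).le.trans (abs_trigPot_le _))).trans_eq ?_
    simp
  have hmm : Measurable m := by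
    have h : Measurable fun z : E × X => trigPot ν ⟪z.1, v z.2⟫ :=
      continuous_trigPot.measurable.comp (measurable_fst.inner (hv.comp measurable_snd))
    exact (h.stronglyMeasurable.integral_prod_right' (ν := ρ)).measurable
  have hU : ∀ g, ∫ x, Real.exp (f ⟪g, v x⟫) ∂ρ = a - m g := fun g => by
    simp only [hk.eq, hm]
    have hi : Integrable (fun x => trigPot ν ⟪g, v x⟫) ρ :=
      Integrable.mono' (integrable_const (ν.real Set.univ))
        (continuous_trigPot.measurable.comp (measurable_const.inner hv)).aestronglyMeasurable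
        (Filter.Eventually.of_forall fun x => (Real.norm_eq_abs _).le.trans (abs_trigPot_le _))
    rw [integral_sub (integrable_const a) hi]
    simp
  have hx : ∀ g, |m g / a| < 1 := fun g => by
    rw [abs_div, abs_of_pos ha, div_lt_one ha]; exact (hmb g).trans_lt hlt
  have hpos : ∀ g, 0 < a - m g := fun g => by linarith [(abs_le.1 (hmb g)).2]
  have hs : ∀ g, HasSum (fun n : ℕ => (m g / a) ^ (n + 1) / ((n : ℝ) + 1))
      (Real.log a - Real.log (a - m g)) := fun g => by
    have h := Real.hasSum_pow_div_log_of_abs_lt_one (hx g)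
    rw [one_sub_div ha.ne', Real.log_div (hpos g).ne' ha.ne', neg_sub] at h
    exact h
  have hint : Integrable (fun g => Real.log (a - m g)) (stdGaussian E) :=
    Integrable.mono' (integrable_const
        (|Real.log (a - ν.real Set.univ)| + |Real.log (a + ν.real Set.univ)|))
      (hmm.const_sub a).log.aestronglyMeasurable (Filter.Eventually.of_forall fun g => by
        obtain ⟨h1, h2⟩ := abs_le.1 (hmb g)
        have l1 := Real.log_le_log (sub_pos.2 hlt)
          (show a - ν.real Set.univ ≤ a - m g by linarith)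
        have l2 := Real.log_le_log (hpos g) (show a - m g ≤ a + ν.real Set.univ by linarith)
        rw [Real.norm_eq_abs, abs_le]
        constructor <;>
          linarith [neg_abs_le (Real.log (a - ν.real Set.univ)),
            le_abs_self (Real.log (a + ν.real Set.univ)),
            abs_nonneg (Real.log (a - ν.real Set.univ)), abs_nonneg (Real.log (a + ν.real Set.univ))])
  have hdom := hasSum_integral_of_dominated_convergence (μ := stdGaussian E)
    (F := fun (n : ℕ) g => (m g / a) ^ (n + 1) / ((n : ℝ) + 1))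
    (f := fun g => Real.log a - Real.log (a - m g)) (fun n _ => r ^ (n + 1))
    (fun n => (((hmm.div_const a).pow_const _).div_const _).aestronglyMeasurable)
    (fun n => Filter.Eventually.of_forall fun g => by
      rw [Real.norm_eq_abs, abs_div, abs_pow, abs_of_pos (by positivity : (0:ℝ) < (n : ℝ) + 1)]
      refine (div_le_self (pow_nonneg (abs_nonneg _) _) (by linarith [Nat.cast_nonneg (α := ℝ) n])).trans
        (pow_le_pow_left₀ (abs_nonneg _) ?_ _)
      rw [abs_div, abs_of_pos ha]
      exact div_le_div_of_nonneg_right (hmb g) ha.le)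
    (Filter.Eventually.of_forall fun g =>
      (summable_nat_add_iff 1).2 (summable_geometric_of_lt_one hr0 hr1))
    (integrable_const _) (Filter.Eventually.of_forall hs)
  rw [integral_sub (integrable_const _) hint] at hdom
  simp only [integral_const, probReal_univ, one_smul] at hdom
  simp only [hU]
  refine hdom.congr_fun fun n => ?_
  rw [← integral_pow_eq_repMom hk.symm hv (n + 1), ← integral_div]
  refine integral_congr_ae (Filter.Eventually.of_forall fun g => ?_)
  simp only [hm, div_pow]
  field_simp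

lemma pair_eval (n : ℕ) {k l : Fin n} (hkl : k ≠ l) :
    MeasurePreserving (fun x : Fin n → X => (x k, x l)) (Measure.pi fun _ => ρ) (ρ.prod ρ) := by
  refine ⟨by fun_prop, ?_⟩
  refine (Measure.prod_eq fun A B hA hB => ?_).symm
  rw [Measure.map_apply (by fun_prop) (hA.prod hB)]
  have e : (fun x : Fin n → X => (x k, x l)) ⁻¹' (A ×ˢ B) =
      Set.univ.pi fun i => if i = k then A else if i = l then B else Set.univ := by
    ext x
    simp only [Set.mem_preimage, Set.mem_prod, Set.mem_pi, Set.mem_univ, true_implies]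
    refine ⟨fun h i => ?_, fun h => ⟨by simpa using h k, by simpa [hkl.symm] using h l⟩⟩
    by_cases hik : i = k
    · simp [hik, h.1]
    · by_cases hil : i = l <;> simp [hik, hil, h.2, hkl.symm]
  rw [e, Measure.pi_pi, ← Finset.prod_subset (Finset.subset_univ {k, l})
    fun i _ hi => by simp at hi; simp [hi], Finset.prod_pair hkl]
  simp [hkl.symm]

lemma cube_bound (j : ℕ) {r : ℝ} (hr0 : 0 ≤ r) (hr : 6 * r ≤ 1) :
    ((j : ℝ) + 3) ^ 3 * r ^ (j + 1) ≤ 27 * r * (1 / 2) ^ j := by
  have h1 : ((j : ℝ) + 3) ^ 3 ≤ 27 * Real.exp j := by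
    have h := pow_le_pow_left₀ (by positivity) (Real.add_one_le_exp ((j : ℝ) / 3)) 3
    rw [← Real.exp_nat_mul] at h
    have e : ((3 : ℕ) : ℝ) * ((j : ℝ) / 3) = j := by push_cast; ring
    rw [e] at h
    nlinarith
  have h2 : Real.exp j * r ^ j ≤ (1 / 2) ^ j := by
    rw [← Real.exp_one_pow, ← mul_pow]
    exact pow_le_pow_left₀ (by positivity)
      (by nlinarith [Real.exp_one_lt_three, Real.exp_pos (1 : ℝ)]) _
  calc ((j : ℝ) + 3) ^ 3 * r ^ (j + 1) ≤ 27 * Real.exp j * r ^ (j + 1) :=
        mul_le_mul_of_nonneg_right h1 (by positivity)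
    _ = 27 * r * (Real.exp j * r ^ j) := by ring
    _ ≤ 27 * r * (1 / 2) ^ j := mul_le_mul_of_nonneg_left h2 (by positivity)

variable {J : Type} [Fintype J] {F : J → Type} [∀ j, NormedAddCommGroup (F j)]
  [∀ j, InnerProductSpace ℝ (F j)] [∀ j, FiniteDimensional ℝ (F j)] [∀ j, MeasurableSpace (F j)]
  [∀ j, BorelSpace (F j)] {s : J → ℝ} {u : ∀ j, X → F j}

omit [MeasurableSpace X] [FiniteDimensional ℝ E] [MeasurableSpace E] [BorelSpace E]
  [∀ j, FiniteDimensional ℝ (F j)] [∀ j, MeasurableSpace (F j)] [∀ j, BorelSpace (F j)] in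
lemma norm_whole (hs1 : ∑ j, s j = 1) (hu1 : ∀ j x, ‖u j x‖ = 1)
    (hgram : ∀ x y, ⟪v x, v y⟫ = ∑ j, s j * ⟪u j x, u j y⟫) (x : X) : ‖v x‖ = 1 := by
  have h := hgram x x
  simp only [real_inner_self_eq_norm_sq, hu1, one_pow, mul_one, hs1] at h
  exact (sq_eq_one_iff.1 h).resolve_right fun h' => by linarith [norm_nonneg (v x)]

lemma tsum_gap_nonneg {d : ℕ → ℝ} {D κ : ℝ} (hd : HasSum d D) (h0 : d 0 = 0)
    (hb : ∀ j : ℕ, |d (j + 2)| ≤ κ * (1 / 2) ^ j) (h1 : 2 * κ ≤ d 1) : 0 ≤ D := by
  have h := (hasSum_nat_add_iff' 2).2 hd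
  have hg := hasSum_geometric_two.mul_left κ
  have := hasSum_le (fun j => (abs_le.1 (hb j)).1) (by simpa [neg_mul] using hg.neg) h
  simp only [Finset.sum_range_succ, Finset.sum_range_zero, h0, zero_add] at this
  linarith

/-- One pattern on the whole system is better than one pattern on a random block. -/
theorem SKer.blockIneq (hk : SKer f a c ν) : BlockIneq f := by
  intro J _ X _ μ _ E _ _ _ _ _ F _ _ _ _ _ v u s hv hu hs0 hs1 hu1 hgram w hw
  have := hk.fin
  have := isProbabilityMeasure_gibbs (μ := μ) hw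
  have ha := hk.pos
  have hv1 := norm_whole hs1 hu1 hgram
  rw [avg_logI (mult_pw hk.pot hv) hw]
  simp only [fun j => avg_logI (μ := μ) (mult_pw hk.pot (hu j)) hw]
  set ρ := gibbs μ w
  set m0 := ν.real Set.univ with hm0def
  set M := ∫ p : ℝ × ℝ, p.1 ^ 2 ∂ν with hMdef
  have hm0 : 0 ≤ m0 := measureReal_nonneg
  have hkey : 27 * m0 * M ^ 2 ≤ a * c := hk.key
  have hsmall : 6 * m0 ≤ a := hk.small
  -- the mean squared Gram difference
  set Dist : X → X → ℝ := fun x y => ∑ j, s j * (⟪u j x, u j y⟫ - ⟪v x, v y⟫) ^ 2 with hDist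
  set W := ∫ p, Dist p.1 p.2 ∂ρ.prod ρ with hW
  have hDm : Measurable fun p : X × X => Dist p.1 p.2 := by simp only [hDist]; fun_prop
  have hD0 : ∀ x y, 0 ≤ Dist x y := fun x y =>
    Finset.sum_nonneg fun j _ => mul_nonneg (hs0 j) (sq_nonneg _)
  have hD4 : ∀ x y, Dist x y ≤ 4 := fun x y => by
    refine le_trans (Finset.sum_le_sum fun j _ => mul_le_mul_of_nonneg_left (b := (⟪u j x, u j y⟫ - ⟪v x, v y⟫) ^ 2) (c := 4) ?_ (hs0 j))
      (b := ∑ j, s j * 4) (by rw [← Finset.sum_mul, hs1, one_mul])
    have h1 := abs_real_inner_le_norm (u j x) (u j y)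
    have h2 := abs_real_inner_le_norm (v x) (v y)
    rw [hu1, hu1, one_mul, abs_le] at h1
    rw [hv1, hv1, one_mul, abs_le] at h2
    nlinarith
  have hW0 : 0 ≤ W := integral_nonneg fun p => hD0 _ _
  have hDi : Integrable (fun p : X × X => Dist p.1 p.2) (ρ.prod ρ) :=
    Integrable.mono' (integrable_const (4 : ℝ)) hDm.aestronglyMeasurable
      (Filter.Eventually.of_forall fun p => by rw [Real.norm_eq_abs, abs_of_nonneg (hD0 _ _)]; exact hD4 _ _)
  have hcoord : ∀ (n : ℕ) (k l : Fin n),
      Integrable (fun x : Fin n → X => Dist (x k) (x l)) (Measure.pi fun _ => ρ) ∧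
      ∫ x, Dist (x k) (x l) ∂Measure.pi (fun _ : Fin n => ρ) ≤ W := fun n k l => by
    by_cases hkl : k = l
    · subst hkl
      have e : ∀ z, Dist z z = 0 := fun z => by
        simp [hDist, real_inner_self_eq_norm_sq, hu1, hv1]
      simp [e, hW0]
    · refine ⟨(pair_eval (ρ := ρ) n hkl).integrable_comp_of_integrable hDi, le_of_eq ?_⟩
      have hmp := pair_eval (ρ := ρ) n hkl
      rw [hW, ← hmp.map_eq, integral_map hmp.aemeasurable hDm.aestronglyMeasurable]
  have hint : ∀ n, Integrable (fun x : Fin n → X => ∑ j, s j * trigMom ν fun i => u j (x i))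
      (Measure.pi fun _ => ρ) := fun n =>
    integrable_finsetSum _ fun j _ => (integrable_trigMom (hu j) n).const_mul _
  have hgap : ∀ n : ℕ, (∑ j, s j * repMom ρ ν (u j) n) - repMom ρ ν v n =
      ∫ x, ((∑ j, s j * trigMom ν fun i => u j (x i)) - trigMom ν fun i => v (x i))
        ∂Measure.pi fun _ : Fin n => ρ := fun n => by
    rw [integral_sub (hint n) (integrable_trigMom hv n),
      integral_finsetSum _ fun j _ => (integrable_trigMom (hu j) n).const_mul _]
    simp only [integral_const_mul, repMom]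
  have hsum : ∀ n : ℕ, Integrable (fun x : Fin n → X => ((n : ℝ) ^ 2 / 8) *
      (M ^ 2 * m0 ^ (n - 2)) * ∑ k, ∑ l, Dist (x k) (x l)) (Measure.pi fun _ => ρ) := fun n =>
    (integrable_finsetSum _ fun k _ => integrable_finsetSum _ fun l _ => (hcoord n k l).1).const_mul _
  -- all orders: the gap is at most a multiple of `W`
  have hall : ∀ n : ℕ, |(∑ j, s j * repMom ρ ν (u j) n) - repMom ρ ν v n| ≤
      (n : ℝ) ^ 4 / 8 * (M ^ 2 * m0 ^ (n - 2)) * W := fun n => by
    rw [hgap, ← Real.norm_eq_abs]
    refine (norm_integral_le_of_norm_le (hsum n) (Filter.Eventually.of_forall fun x => ?_)).trans ?_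
    · rw [Real.norm_eq_abs]
      refine trigMom_gap hk.sq hs0 hs1 (fun k l => hgram _ _) fun j k => ?_
      simp [real_inner_self_eq_norm_sq, hu1, hv1]
    · rw [integral_const_mul, integral_finsetSum _ fun k _ =>
        integrable_finsetSum _ fun l _ => (hcoord n k l).1]
      refine (mul_le_mul_of_nonneg_left (Finset.sum_le_sum (g := fun _ => (n : ℝ) * W) fun k _ => ?_)
        (by positivity)).trans (le_of_eq ?_)
      · rw [integral_finsetSum _ fun l _ => (hcoord n k l).1]
        exact (Finset.sum_le_sum fun l _ => (hcoord n k l).2).trans_eq (by simp)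
      · simp only [Finset.sum_const, Finset.card_univ, Fintype.card_fin, nsmul_eq_mul]
        ring
  -- order one: no gap
  have hone : (∑ j, s j * repMom ρ ν (u j) 1) - repMom ρ ν v 1 = 0 := by
    rw [hgap]
    refine integral_eq_zero_of_ae (Filter.Eventually.of_forall fun x => ?_)
    have e : ∀ j, (trigMom ν fun i => u j (x i)) = trigMom ν fun i => v (x i) := fun j => by
      simp only [trigMom, Fin.sum_univ_one, norm_smul, hu1, hv1]
    simp [e, ← Finset.sum_mul, hs1]
  -- order two: the strong convexity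
  have htwo : c / 2 * W ≤ (∑ j, s j * repMom ρ ν (u j) 2) - repMom ρ ν v 2 := by
    have hmp := pair_eval (ρ := ρ) 2 (k := 0) (l := 1) (by decide)
    have hW2 : W = ∫ x, Dist (x 0) (x 1) ∂Measure.pi fun _ : Fin 2 => ρ := by
      rw [hW, ← hmp.map_eq, integral_map hmp.aemeasurable hDm.aestronglyMeasurable]
    rw [hgap, hW2, ← integral_const_mul]
    refine integral_mono ((hcoord 2 0 1).1.const_mul _)
      ((hint 2).sub (integrable_trigMom hv 2)) fun x => ?_
    simp only [trigMom_two hk.symm (u := fun i => u _ (x i)) fun i => hu1 _ _,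
      trigMom_two hk.symm (u := fun i => v (x i)) fun i => hv1 _]
    have hmem : ∀ j ∈ (Finset.univ : Finset J), ⟪u j (x 0), u j (x 1)⟫ ∈ Set.Icc (-1 : ℝ) 1 :=
      fun j _ => by
        have := abs_real_inner_le_norm (u j (x 0)) (u j (x 1))
        rw [hu1, hu1, one_mul] at this
        exact abs_le.1 this
    have h := hk.conv.map_sum_le (fun j _ => hs0 j) hs1 hmem
    simp only [smul_eq_mul, ← hgram, mul_sub, Finset.sum_sub_distrib] at h
    have h3 := sum_sq_sub hs1 (A := fun j => ⟪u j (x 0), u j (x 1)⟫) (hgram (x 0) (x 1))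
    have e : ∀ z : J → ℝ, ∑ j, s j * (c * z j ^ 2 / 2) = c / 2 * ∑ j, s j * z j ^ 2 := fun z => by
      rw [Finset.mul_sum]
      exact Finset.sum_congr rfl fun j _ => by ring
    rw [e fun j => ⟪u j (x 0), u j (x 1)⟫] at h
    simp only [hDist]
    rw [h3, mul_sub]
    linarith [show c * ⟪v (x 0), v (x 1)⟫ ^ 2 / 2 = c / 2 * ⟪v (x 0), v (x 1)⟫ ^ 2 by ring]
  -- compare the series
  have hV := hasSum_repMom (ρ := ρ) hk hv
  have hU := hasSum_sum (s := Finset.univ) fun j (_ : j ∈ Finset.univ) =>
    (hasSum_repMom (ρ := ρ) hk (hu j)).mul_left (s j)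
  have hd := hU.sub hV
  set r := m0 / a with hr
  have hr0 : 0 ≤ r := div_nonneg hm0 ha.le
  have hr6 : 6 * r ≤ 1 := by rw [hr, mul_div_assoc', div_le_one ha]; exact hsmall
  have hterm : ∀ n : ℕ, (∑ j, s j * (repMom ρ ν (u j) (n + 1) / (((n : ℝ) + 1) * a ^ (n + 1)))) -
      repMom ρ ν v (n + 1) / (((n : ℝ) + 1) * a ^ (n + 1)) =
      ((∑ j, s j * repMom ρ ν (u j) (n + 1)) - repMom ρ ν v (n + 1)) /
        (((n : ℝ) + 1) * a ^ (n + 1)) := fun n => by
    rw [sub_div, Finset.sum_div]
    exact congrArg (fun z => z - _) (Finset.sum_congr rfl fun j _ => (mul_div_assoc _ _ _).symm)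
  simp only [hterm] at hd
  have h0 := tsum_gap_nonneg hd (κ := 27 * r * M ^ 2 * W / (8 * a ^ 2)) ?_ ?_ ?_
  · simp only [pw, mul_add, mul_sub, Finset.sum_add_distrib, Finset.sum_sub_distrib, ← Finset.sum_mul,
      hs1, one_mul] at h0 ⊢
    linarith
  · simp [hone]
  · intro j
    rw [abs_div, abs_of_pos (by positivity : (0 : ℝ) < (((j + 2 : ℕ) : ℝ) + 1) * a ^ (j + 2 + 1))]
    refine (div_le_div_of_nonneg_right (hall (j + 2 + 1)) (by positivity)).trans ?_
    have hb := cube_bound j hr0 hr6
    have h8 := mul_le_mul_of_nonneg_right hb (by positivity : 0 ≤ M ^ 2 * W / (8 * a ^ 2))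
    refine le_trans (le_of_eq ?_) (h8.trans (le_of_eq (by ring)))
    rw [show j + 2 + 1 - 2 = j + 1 by omega, hr, div_pow]
    push_cast
    field_simp
    ring
  · simp only [Nat.reduceAdd, Nat.cast_one]
    rw [le_div_iff₀ (by positivity)]
    refine le_trans ?_ htwo
    have h9 := mul_le_mul_of_nonneg_right hkey hW0
    rw [hr]
    field_simp
    nlinarith

end Vale.Agent.P157.Small
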