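import Vale.Agent.P157.Defs

/-!
Small trigonometric perturbations of a constant weight.
-/

namespace Vale.Agent.P157.Small

open MeasureTheory ProbabilityTheory

/-- The bounded function `x ↦ ∫ cos(t x + φ) dν(t, φ)`. -/
noncomputable def trigPot (ν : Measure (ℝ × ℝ)) (x : ℝ) : ℝ :=
  ∫ p, Real.cos (p.1 * x + p.2) ∂ν

/-- The correlation `E h(z) h(q z + √(1 - q²) w)` of two standard Gaussians with covariance `q`. -/
noncomputable def corr (h : ℝ → ℝ) (q : ℝ) : ℝ :=
  ∫ p : ℝ × ℝ, h p.1 * h (q * p.1 + Real.sqrt (1 - q ^ 2) * p.2)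
    ∂(gaussianReal 0 1).prod (gaussianReal 0 1)

end Vale.Agent.P157.Small
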