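import Vale.Agent.P157.Small.Moment

/-!
Jensen gaps of the replica moments under a convex decomposition of the Gram matrix.
-/

namespace Vale.Agent.P157.Small

open MeasureTheory ProbabilityTheory
open scoped RealInnerProductSpace

lemma convexOn_sq_sub_exp : ConvexOn ℝ (Set.Ici 0) fun x : ℝ => x ^ 2 / 2 - Real.exp (-x) := by
  refine convexOn_of_hasDerivWithinAt2_nonneg (convex_Ici 0) (f' := fun x => x + Real.exp (-x))
    (f'' := fun x => 1 - Real.exp (-x)) (by fun_prop) (fun x _ => ?_) (fun x _ => ?_) fun x hx => ?_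
  · have h := (((hasDerivAt_id x).pow 2).div_const 2).sub ((hasDerivAt_id x).neg.exp)
    refine (h.congr_deriv ?_).hasDerivWithinAt
    simp
  · have h := (hasDerivAt_id x).add ((hasDerivAt_id x).neg.exp)
    refine (h.congr_deriv ?_).hasDerivWithinAt
    simp [sub_eq_add_neg]
  · rw [interior_Ici] at hx
    have : Real.exp (-x) ≤ 1 := Real.exp_le_one_iff.2 (by simpa using hx.le)
    linarith

variable {J : Type} [Fintype J] {s : J → ℝ}

lemma sum_sq_sub (hs1 : ∑ j, s j = 1) {A : J → ℝ} {m : ℝ} (hm : m = ∑ j, s j * A j) :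
    ∑ j, s j * (A j - m) ^ 2 = (∑ j, s j * A j ^ 2) - m ^ 2 := by
  have e : ∀ j, s j * (A j - m) ^ 2 = s j * A j ^ 2 - 2 * m * (s j * A j) + m ^ 2 * s j := fun j => by
    ring
  simp only [e, Finset.sum_add_distrib, Finset.sum_sub_distrib, ← Finset.mul_sum, ← hm, hs1]
  ring

lemma exp_gap (hs0 : ∀ j, 0 ≤ s j) (hs1 : ∑ j, s j = 1) {A : J → ℝ} (hA : ∀ j, 0 ≤ A j) {m : ℝ}
    (hm : m = ∑ j, s j * A j) :
    |(∑ j, s j * Real.exp (-A j)) - Real.exp (-m)| ≤ (∑ j, s j * (A j - m) ^ 2) / 2 := by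
  have h1 := convexOn_exp.map_sum_le (t := Finset.univ) (w := s) (p := fun j => -A j)
    (fun j _ => hs0 j) hs1 fun j _ => Set.mem_univ _
  have h2 := convexOn_sq_sub_exp.map_sum_le (t := Finset.univ) (w := s) (p := A)
    (fun j _ => hs0 j) hs1 fun j _ => hA j
  simp only [smul_eq_mul, mul_neg, Finset.sum_neg_distrib, mul_sub, Finset.sum_sub_distrib,
    mul_div_assoc', ← Finset.sum_div, ← hm] at h1 h2
  have h3 := sum_sq_sub hs1 hm
  rw [abs_of_nonneg (by linarith)]
  linarith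

variable {ν : Measure (ℝ × ℝ)} [IsFiniteMeasure ν] {n : ℕ}

/-- Squared distance between the Gram matrices of the blocks and of the whole. -/
noncomputable def gramDist {E : Type} [NormedAddCommGroup E] [InnerProductSpace ℝ E]
    {F : J → Type} [∀ j, NormedAddCommGroup (F j)] [∀ j, InnerProductSpace ℝ (F j)] (s : J → ℝ)
    (v : Fin n → E) (u : ∀ j, Fin n → F j) (k l : Fin n) : ℝ :=
  ∑ j, s j * (⟪u j k, u j l⟫ - ⟪v k, v l⟫) ^ 2

omit [IsFiniteMeasure ν] in
lemma integrable_coord_prod [IsFiniteMeasure ν] (hν : Integrable (fun p : ℝ × ℝ => p.1 ^ 2) ν)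
    {k l : Fin n} (hkl : k ≠ l) :
    Integrable (fun y : Fin n → ℝ × ℝ => (y k).1 ^ 2 * (y l).1 ^ 2) (Measure.pi fun _ => ν) ∧
      ∫ y, (y k).1 ^ 2 * (y l).1 ^ 2 ∂Measure.pi (fun _ : Fin n => ν) =
        (∫ p, p.1 ^ 2 ∂ν) ^ 2 * ν.real Set.univ ^ (n - 2) := by
  set g : Fin n → ℝ × ℝ → ℝ := fun i p => if i = k ∨ i = l then p.1 ^ 2 else 1 with hg
  have hgi : ∀ i, Integrable (g i) ν := fun i => by
    by_cases h : i = k ∨ i = l
    · simpa [hg, h] using hν
    · simp [hg, h]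
  have hp : ∀ y : Fin n → ℝ × ℝ, ∏ i, g i (y i) = (y k).1 ^ 2 * (y l).1 ^ 2 := fun y => by
    rw [← Finset.prod_subset (Finset.subset_univ {k, l})
      fun i _ hi => by simp at hi; simp [hg, hi], Finset.prod_pair hkl]
    simp [hg]
  refine ⟨(Integrable.fintype_prod hgi).congr (Filter.Eventually.of_forall hp), ?_⟩
  simp only [← hp]
  rw [integral_fintype_prod_eq_prod (μ := fun _ : Fin n => ν) g,
    ← Finset.prod_mul_prod_compl {k, l}, Finset.prod_pair hkl,
    Finset.prod_congr rfl (s₁ := ({k, l} : Finset (Fin n))ᶜ) (g := fun _ => ν.real Set.univ)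
      (fun i hi => by simp at hi; simp [hg, hi]), Finset.prod_const, Finset.card_compl,
    Finset.card_pair hkl, Fintype.card_fin]
  simp only [hg, true_or, or_true, if_true]
  ring

lemma integrable_trig {E : Type} [NormedAddCommGroup E] [InnerProductSpace ℝ E] (u : Fin n → E) :
    Integrable (fun y : Fin n → ℝ × ℝ =>
      Real.cos (∑ i, (y i).2) * Real.exp (-(‖∑ i, (y i).1 • u i‖ ^ 2 / 2)))
      (Measure.pi fun _ => ν) :=
  Integrable.mono' (integrable_const (1 : ℝ)) (Continuous.aestronglyMeasurable (by fun_prop))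
    (Filter.Eventually.of_forall fun y => by
      rw [Real.norm_eq_abs, abs_mul, Real.abs_exp]
      exact mul_le_one₀ (Real.abs_cos_le_one _) (Real.exp_pos _).le
        (Real.exp_le_one_iff.2 (by linarith [sq_nonneg ‖∑ i, (y i).1 • u i‖])))

variable {E : Type} [NormedAddCommGroup E] [InnerProductSpace ℝ E]
  {F : J → Type} [∀ j, NormedAddCommGroup (F j)] [∀ j, InnerProductSpace ℝ (F j)]

/-- The Jensen gap of one replica moment is quadratic in the off-diagonal Gram differences. -/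
lemma trigMom_gap (hν : Integrable (fun p : ℝ × ℝ => p.1 ^ 2) ν) (hs0 : ∀ j, 0 ≤ s j)
    (hs1 : ∑ j, s j = 1) {v : Fin n → E} {u : ∀ j, Fin n → F j}
    (hgram : ∀ k l, ⟪v k, v l⟫ = ∑ j, s j * ⟪u j k, u j l⟫)
    (hdiag : ∀ j k, ⟪u j k, u j k⟫ = ⟪v k, v k⟫) :
    |(∑ j, s j * trigMom ν (u j)) - trigMom ν v| ≤ ((n : ℝ) ^ 2 / 8) *
      ((∫ p, p.1 ^ 2 ∂ν) ^ 2 * ν.real Set.univ ^ (n - 2)) * ∑ k, ∑ l, gramDist s v u k l := by
  set D : J → Fin n → Fin n → ℝ := fun j k l => ⟪u j k, u j l⟫ - ⟪v k, v l⟫ with hD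
  set G : (Fin n → ℝ × ℝ) → ℝ := fun y =>
    ((n : ℝ) ^ 2 / 8) * ∑ k, ∑ l, gramDist s v u k l * ((y k).1 ^ 2 * (y l).1 ^ 2) with hG
  have hterm : ∀ k l, Integrable
      (fun y : Fin n → ℝ × ℝ => gramDist s v u k l * ((y k).1 ^ 2 * (y l).1 ^ 2))
      (Measure.pi fun _ => ν) := fun k l => by
    by_cases h : k = l
    · subst h
      have e0 : gramDist s v u k k = 0 := Finset.sum_eq_zero fun j _ => by rw [hdiag]; ring
      simp [e0]
    · exact (integrable_coord_prod hν h).1.const_mul _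
  have hGi : Integrable G (Measure.pi fun _ => ν) :=
    (integrable_finsetSum _ fun k _ => integrable_finsetSum _ fun l _ => hterm k l).const_mul _
  have hval : ∫ y, G y ∂Measure.pi (fun _ : Fin n => ν) = ((n : ℝ) ^ 2 / 8) *
      ((∫ p, p.1 ^ 2 ∂ν) ^ 2 * ν.real Set.univ ^ (n - 2)) * ∑ k, ∑ l, gramDist s v u k l := by
    rw [hG, integral_const_mul, integral_finsetSum _ fun k _ => integrable_finsetSum _ fun l _ => hterm k l,
      mul_assoc, Finset.mul_sum _ _ ((∫ p, p.1 ^ 2 ∂ν) ^ 2 * _)]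
    congr 1
    refine Finset.sum_congr rfl fun k _ => ?_
    rw [integral_finsetSum _ fun l _ => hterm k l, Finset.mul_sum]
    refine Finset.sum_congr rfl fun l _ => ?_
    by_cases h : k = l
    · subst h
      have e0 : gramDist s v u k k = 0 := Finset.sum_eq_zero fun j _ => by rw [hdiag]; ring
      simp [e0]
    · rw [integral_const_mul, (integrable_coord_prod hν h).2]
      ring
  have hpt : ∀ y : Fin n → ℝ × ℝ,
      |(∑ j, s j * (Real.cos (∑ i, (y i).2) * Real.exp (-(‖∑ i, (y i).1 • u j i‖ ^ 2 / 2)))) -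
        Real.cos (∑ i, (y i).2) * Real.exp (-(‖∑ i, (y i).1 • v i‖ ^ 2 / 2))| ≤ G y := fun y => by
    have eA : ∀ {K : Type} [NormedAddCommGroup K] [InnerProductSpace ℝ K] (z : Fin n → K),
        ‖∑ i, (y i).1 • z i‖ ^ 2 / 2 = (∑ k, ∑ l, (y k).1 * (y l).1 * ⟪z k, z l⟫) / 2 := by
      intro K _ _ z
      rw [← real_inner_self_eq_norm_sq, sum_inner]
      simp only [inner_sum, real_inner_smul_left, real_inner_smul_right]
      congr 1
      exact Finset.sum_congr rfl fun k _ => Finset.sum_congr rfl fun l _ => by ring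
    set A : J → ℝ := fun j => ‖∑ i, (y i).1 • u j i‖ ^ 2 / 2 with hA
    have hm : ‖∑ i, (y i).1 • v i‖ ^ 2 / 2 = ∑ j, s j * A j := by
      simp only [hA, eA, hgram, Finset.mul_sum, Finset.sum_div]
      rw [Finset.sum_comm_cycle]
      exact Finset.sum_congr rfl fun j _ => Finset.sum_congr rfl fun k _ =>
        Finset.sum_congr rfl fun l _ => by ring
    have hgap := exp_gap hs0 hs1 (A := A) (fun j => by positivity) hm
    rw [Finset.sum_congr rfl fun j _ => mul_left_comm (s j) _ _, ← Finset.mul_sum, ← mul_sub,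
      abs_mul]
    refine (mul_le_of_le_one_left (abs_nonneg _) (Real.abs_cos_le_one _)).trans (hgap.trans ?_)
    have hsq : ∀ j, (A j - ‖∑ i, (y i).1 • v i‖ ^ 2 / 2) ^ 2 ≤ (n : ℝ) ^ 2 / 4 *
        ∑ k, ∑ l, D j k l ^ 2 * ((y k).1 ^ 2 * (y l).1 ^ 2) := fun j => by
      have e : A j - ‖∑ i, (y i).1 • v i‖ ^ 2 / 2 =
          (∑ p : Fin n × Fin n, (y p.1).1 * (y p.2).1 * D j p.1 p.2) / 2 := by
        simp only [hA, eA, hD, Fintype.sum_prod_type, mul_sub, Finset.sum_sub_distrib]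
        ring
      rw [e, div_pow]
      have h := sq_sum_le_card_mul_sum_sq (s := (Finset.univ : Finset (Fin n × Fin n)))
        (f := fun p => (y p.1).1 * (y p.2).1 * D j p.1 p.2)
      simp only [Finset.card_univ, Fintype.card_prod, Fintype.card_fin, Nat.cast_mul] at h
      refine (div_le_div_of_nonneg_right h (by norm_num)).trans (le_of_eq ?_)
      simp only [Fintype.sum_prod_type, mul_pow]
      rw [sq (n : ℝ)]
      ring_nf
      simp only [mul_comm, mul_left_comm, mul_assoc]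
    refine (div_le_div_of_nonneg_right
      (Finset.sum_le_sum fun j _ => mul_le_mul_of_nonneg_left (hsq j) (hs0 j)) two_pos.le).trans
      (le_of_eq ?_)
    simp only [hG, gramDist, Finset.mul_sum, Finset.sum_mul, Finset.sum_div]
    rw [Finset.sum_comm_cycle]
    rw [Finset.sum_comm_cycle]
    exact Finset.sum_congr rfl fun j _ => Finset.sum_congr rfl fun k _ =>
      Finset.sum_congr rfl fun l _ => by simp only [hD]; ring
  have hi : Integrable (fun y : Fin n → ℝ × ℝ => ∑ j, s j *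
      (Real.cos (∑ i, (y i).2) * Real.exp (-(‖∑ i, (y i).1 • u j i‖ ^ 2 / 2))))
      (Measure.pi fun _ => ν) :=
    integrable_finsetSum _ fun j _ => (integrable_trig (u j)).const_mul _
  rw [← hval]
  refine le_trans (le_of_eq ?_) (norm_integral_le_of_norm_le (f := fun y : Fin n → ℝ × ℝ =>
    (∑ j, s j * (Real.cos (∑ i, (y i).2) * Real.exp (-(‖∑ i, (y i).1 • u j i‖ ^ 2 / 2)))) -
      Real.cos (∑ i, (y i).2) * Real.exp (-(‖∑ i, (y i).1 • v i‖ ^ 2 / 2))) hGi
    (Filter.Eventually.of_forall fun y => (Real.norm_eq_abs _).trans_le (hpt y)))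
  rw [integral_sub hi (integrable_trig v),
    integral_finsetSum _ fun j _ => (integrable_trig (u j)).const_mul _, Real.norm_eq_abs]
  simp only [integral_const_mul, trigMom]

end Vale.Agent.P157.Small
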