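import Vale.Agent.P157.Small.Block
import Vale.Agent.P157.Model

/-!
Small potentials with a strictly convex two-replica correlation: existence of the limit at every
pattern density.
-/

namespace Vale.Agent.P157.Small

open MeasureTheory ProbabilityTheory Filter
open scoped Topology ENNReal

variable {ν : Measure (ℝ × ℝ)}

/-- Symmetrisation under simultaneous negation of frequency and phase. -/
noncomputable def symm (ν : Measure (ℝ × ℝ)) : Measure (ℝ × ℝ) :=
  (2 : ℝ≥0∞)⁻¹ • (ν + ν.map Neg.neg)

lemma symm_neg (ν : Measure (ℝ × ℝ)) : (symm ν).map Neg.neg = symm ν := by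
  have hm : (ν.map Neg.neg).map Neg.neg = ν := by
    rw [Measure.map_map measurable_neg measurable_neg]
    have : (Neg.neg ∘ Neg.neg : ℝ × ℝ → ℝ × ℝ) = id := funext fun x => neg_neg x
    rw [this, Measure.map_id]
  rw [symm, Measure.map_smul, Measure.map_add _ _ measurable_neg, hm, add_comm]

lemma isFinite_symm [IsFiniteMeasure ν] : IsFiniteMeasure (symm ν) :=
  Measure.smul_finite _ (by simp)

lemma integral_symm [IsFiniteMeasure ν] {g : ℝ × ℝ → ℝ} (hg : Continuous g)
    (hi : Integrable g ν) (he : ∀ p, g (-p) = g p) : ∫ p, g p ∂symm ν = ∫ p, g p ∂ν := by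
  have hm : ∫ p, g p ∂ν.map Neg.neg = ∫ p, g p ∂ν := by
    rw [integral_map measurable_neg.aemeasurable hg.aestronglyMeasurable]
    simp only [he]
  have hi' : Integrable g (ν.map Neg.neg) :=
    (integrable_map_measure hg.aestronglyMeasurable measurable_neg.aemeasurable).2
      (hi.congr (Filter.Eventually.of_forall fun p => (he p).symm))
  rw [symm, integral_smul_measure, integral_add_measure hi hi', hm]
  simp only [ENNReal.toReal_inv, ENNReal.toReal_ofNat, smul_eq_mul]
  ring

lemma integrable_symm_sq [IsFiniteMeasure ν] (hi : Integrable (fun p : ℝ × ℝ => p.1 ^ 2) ν) :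
    Integrable (fun p : ℝ × ℝ => p.1 ^ 2) (symm ν) := by
  refine (Integrable.add_measure hi ?_).smul_measure (by simp)
  refine (integrable_map_measure (Continuous.aestronglyMeasurable (by fun_prop))
    measurable_neg.aemeasurable).2 ?_
  simpa [Function.comp_def] using hi

/-- The measure representing `-ε * trigPot ν`. -/
noncomputable def scaled (ν : Measure (ℝ × ℝ)) (ε : ℝ) : Measure (ℝ × ℝ) :=
  ENNReal.ofReal |ε| • ν.map fun p => (p.1, p.2 + if 0 ≤ ε then Real.pi else 0)

lemma sker_scaled [IsFiniteMeasure ν] (hν : Integrable (fun p : ℝ × ℝ => p.1 ^ 2) ν) {c : ℝ}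
    (hconv : ConvexOn ℝ (Set.Icc (-1 : ℝ) 1) fun q => corr (trigPot ν) q - c * q ^ 2 / 2)
    {ε : ℝ} (h1 : 6 * |ε| * ν.real Set.univ ≤ 1)
    (h2 : 27 * |ε| * ν.real Set.univ * (∫ p, p.1 ^ 2 ∂ν) ^ 2 ≤ c) :
    SKer (fun x => Real.log (1 + ε * trigPot ν x)) 1 (ε ^ 2 * c) (symm (scaled ν ε)) := by
  set θ : ℝ := if 0 ≤ ε then Real.pi else 0 with hθ
  have hT : Measurable fun p : ℝ × ℝ => (p.1, p.2 + θ) := by fun_prop
  have : IsFiniteMeasure (scaled ν ε) := Measure.smul_finite _ ENNReal.ofReal_ne_top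
  have hcos : |ε| * Real.cos θ = -ε := by
    by_cases h : 0 ≤ ε
    · simp [hθ, h, abs_of_nonneg h]
    · simp [hθ, h, abs_of_neg (not_le.1 h)]
  have hint : ∀ g : ℝ × ℝ → ℝ, Continuous g →
      ∫ p, g p ∂scaled ν ε = |ε| * ∫ p, g (p.1, p.2 + θ) ∂ν := fun g hg => by
    rw [scaled, integral_smul_measure, ENNReal.toReal_ofReal (abs_nonneg ε), smul_eq_mul,
      integral_map hT.aemeasurable hg.aestronglyMeasurable]
  have hsq : Integrable (fun p : ℝ × ℝ => p.1 ^ 2) (scaled ν ε) := by
    refine Integrable.smul_measure ?_ ENNReal.ofReal_ne_top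
    exact (integrable_map_measure (Continuous.aestronglyMeasurable (by fun_prop)) hT.aemeasurable).2
      (by simpa [Function.comp_def] using hν)
  have hV : ∀ x, trigPot (symm (scaled ν ε)) x = -ε * trigPot ν x := fun x => by
    have h := integral_symm (ν := scaled ν ε) (g := fun p : ℝ × ℝ => Real.cos (p.1 * x + p.2))
      (by fun_prop)
      (Integrable.mono' (integrable_const (1 : ℝ)) (Continuous.aestronglyMeasurable (by fun_prop))
        (Filter.Eventually.of_forall fun p => by simpa using Real.abs_cos_le_one _))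
      (fun p => by
        rw [show (-p).1 * x + (-p).2 = -(p.1 * x + p.2) by simp; ring, Real.cos_neg])
    simp only [trigPot]
    rw [h, hint _ (by fun_prop), ← hcos, mul_assoc, ← integral_const_mul (Real.cos θ)]
    congr 1
    refine integral_congr_ae (Filter.Eventually.of_forall fun p => ?_)
    have hsin : Real.sin θ = 0 := by by_cases h : 0 ≤ ε <;> simp [hθ, h]
    simp only [← add_assoc, Real.cos_add, hsin]
    ring
  have hone := hint (fun _ => (1 : ℝ)) continuous_const
  simp only [integral_const, smul_eq_mul, mul_one] at hone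
  have hmass : (symm (scaled ν ε)).real Set.univ = |ε| * ν.real Set.univ := by
    have h := integral_symm (ν := scaled ν ε) (g := fun _ => (1 : ℝ)) continuous_const
      (integrable_const _) fun _ => rfl
    simp only [integral_const, smul_eq_mul, mul_one] at h
    rw [h, hone]
  have hM : ∫ p, p.1 ^ 2 ∂symm (scaled ν ε) = |ε| * ∫ p, p.1 ^ 2 ∂ν := by
    rw [integral_symm (g := fun p : ℝ × ℝ => p.1 ^ 2) (by fun_prop) hsq fun p => by simp, hint _ (by fun_prop)]
  refine ⟨isFinite_symm, symm_neg _, integrable_symm_sq hsq, one_pos, ?_, fun x => ?_, ?_, ?_⟩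
  · rw [hmass]; linarith
  · rw [hV, Real.exp_log]
    · ring
    · have h3 := abs_trigPot_le (ν := ν) x
      have h4 : |ε * trigPot ν x| ≤ |ε| * ν.real Set.univ := by
        rw [abs_mul]; exact mul_le_mul_of_nonneg_left h3 (abs_nonneg _)
      linarith [(abs_le.1 h4).1]
  · have e : (fun q => corr (trigPot (symm (scaled ν ε))) q - ε ^ 2 * c * q ^ 2 / 2) =
        fun q => ε ^ 2 • (corr (trigPot ν) q - c * q ^ 2 / 2) := funext fun q => by
      simp only [corr, hV, smul_eq_mul, mul_sub, ← integral_const_mul]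
      congr 1
      · exact integral_congr_ae (Filter.Eventually.of_forall fun p => by ring)
      · ring
    rw [e]
    exact hconv.smul (sq_nonneg ε)
  · rw [hmass, hM]
    have h := mul_le_mul_of_nonneg_left h2 (sq_nonneg ε)
    refine le_trans (le_of_eq ?_) (h.trans (le_of_eq (by ring)))
    rw [← sq_abs ε]
    ring

/-- Existence of the limit at every density for small potentials with strictly convex
correlation. -/
theorem exists_limit_small [IsFiniteMeasure ν] (hν : Integrable (fun p : ℝ × ℝ => p.1 ^ 2) ν)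
    {c : ℝ} (hconv : ConvexOn ℝ (Set.Icc (-1 : ℝ) 1) fun q => corr (trigPot ν) q - c * q ^ 2 / 2)
    {ε : ℝ} (h1 : 6 * |ε| * ν.real Set.univ ≤ 1)
    (h2 : 27 * |ε| * ν.real Set.univ * (∫ p, p.1 ^ 2 ∂ν) ^ 2 ≤ c) {α : ℝ} (hα : 0 < α) :
    let f := fun x => Real.log (1 + ε * trigPot ν x)
    (∃ p, Tendsto (fun N : ℕ => cubePressure f N ⌊α * N⌋₊) atTop (𝓝 p) ∧
      IsLUB (Set.range fun N : ℕ => poissonMean (α * (N + 1)) (cubePressure f (N + 1))) p) ∧
    ∃ p, Tendsto (fun N : ℕ => spherePressure f N ⌊α * N⌋₊) atTop (𝓝 p) ∧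
      IsLUB (Set.range fun N : ℕ => poissonMean (α * (N + 1)) (spherePressure f (N + 1))) p := by
  intro f
  have hk := sker_scaled hν hconv h1 h2
  exact ⟨⟨_, (superAdd_cube_of hk.pot hk.blockIneq).limit_spec hα fun N _ k => cubeF_eq hk.pot N k⟩,
    ⟨_, (superAdd_sphere_of hk.pot hk.blockIneq).limit_spec hα fun N hN k => sphereF_eq hk.pot hN k⟩⟩

end Vale.Agent.P157.Small
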