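import Vale.Agent.P157.Small.Defs
import Vale.Agent.P157.Kernel

/-!
Gaussian moments of trigonometric potentials as integrals of a damped cosine.
-/

namespace Vale.Agent.P157.Small

open MeasureTheory ProbabilityTheory Complex
open scoped RealInnerProductSpace

variable {ν : Measure (ℝ × ℝ)} [IsFiniteMeasure ν]

omit [IsFiniteMeasure ν] in
lemma measurable_cexp_phase : Measurable fun p : ℝ × ℝ => cexp (((p.2 : ℝ) : ℂ) * I) := by fun_prop

lemma abs_trigPot_le (x : ℝ) : |trigPot ν x| ≤ ν.real Set.univ := by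
  rw [← Real.norm_eq_abs]
  refine (norm_integral_le_of_norm_le_const (μ := ν) (C := 1)
    (Filter.Eventually.of_forall fun p => by simpa using Real.abs_cos_le_one _)).trans_eq ?_
  rw [one_mul]

lemma continuous_trigPot : Continuous (trigPot ν) :=
  continuous_of_dominated (bound := fun _ => (1 : ℝ))
    (fun x => Continuous.aestronglyMeasurable (by fun_prop))
    (fun x => Filter.Eventually.of_forall fun p => by simpa using Real.abs_cos_le_one _)
    (integrable_const _) (Filter.Eventually.of_forall fun p => by fun_prop)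

lemma integral_cexp_trig (hsym : ν.map Neg.neg = ν) (x : ℝ) :
    ∫ p, cexp ((p.1 * x + p.2 : ℝ) * I) ∂ν = (trigPot ν x : ℂ) := by
  have hb : ∀ g : ℝ × ℝ → ℝ, Continuous g → (∀ p, |g p| ≤ 1) → Integrable g ν := fun g hg h =>
    Integrable.mono' (integrable_const (1 : ℝ)) hg.aestronglyMeasurable
      (Filter.Eventually.of_forall fun p => by simpa using h p)
  have hci := hb (fun p => Real.cos (p.1 * x + p.2)) (by fun_prop) fun p => Real.abs_cos_le_one _
  have hsi := hb (fun p => Real.sin (p.1 * x + p.2)) (by fun_prop) fun p => Real.abs_sin_le_one _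
  have hsin : ∫ p, Real.sin (p.1 * x + p.2) ∂ν = 0 := by
    have h : ∫ p, Real.sin (p.1 * x + p.2) ∂ν = ∫ p : ℝ × ℝ, Real.sin (-p.1 * x + -p.2) ∂ν := by
      conv_lhs => rw [← hsym]
      rw [integral_map measurable_neg.aemeasurable (Continuous.aestronglyMeasurable (by fun_prop))]
      rfl
    have e : ∀ p : ℝ × ℝ, -p.1 * x + -p.2 = -(p.1 * x + p.2) := fun p => by ring
    simp only [e, Real.sin_neg, integral_neg] at h
    linarith
  have e : ∀ p : ℝ × ℝ, cexp ((p.1 * x + p.2 : ℝ) * I) = ((Real.cos (p.1 * x + p.2) : ℝ) : ℂ) +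
      ((Real.sin (p.1 * x + p.2) : ℝ) : ℂ) * I := fun p => by
    rw [Complex.exp_mul_I, Complex.ofReal_cos, Complex.ofReal_sin]
  have hc' : Integrable (fun p => ((Real.cos (p.1 * x + p.2) : ℝ) : ℂ)) ν := hci.ofReal
  have hs' : Integrable (fun p => ((Real.sin (p.1 * x + p.2) : ℝ) : ℂ) * I) ν :=
    hsi.ofReal.mul_const I
  simp only [e]
  rw [integral_add hc' hs', integral_mul_const, integral_complex_ofReal, integral_complex_ofReal,
    hsin]
  simp [trigPot]

/-- A product of trigonometric potentials of jointly centred Gaussian linear forms. -/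
lemma integral_prod_trigPot (hsym : ν.map Neg.neg = ν) {Ω : Type} [MeasurableSpace Ω]
    {P : Measure Ω} [IsProbabilityMeasure P] {ι : Type} [Fintype ι] {l : ι → Ω → ℝ}
    (hl : ∀ i, Measurable (l i)) {S : (ι → ℝ) → ℝ}
    (hS : ∀ t : ι → ℝ, ∫ ω, cexp ((∑ i, t i * l i ω : ℝ) * I) ∂P = (Real.exp (-S t) : ℂ)) :
    ∫ ω, ∏ i, trigPot ν (l i ω) ∂P =
      ∫ y, Real.cos (∑ i, (y i).2) * Real.exp (-S fun i => (y i).1)
        ∂Measure.pi fun _ : ι => ν := by
  set F : Ω → (ι → ℝ × ℝ) → ℂ := fun ω y =>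
    cexp ((∑ i, (y i).2 : ℝ) * I) * cexp ((∑ i, (y i).1 * l i ω : ℝ) * I) with hF
  have hp : ∀ ω, ((∏ i, trigPot ν (l i ω) : ℝ) : ℂ) =
      ∫ y, F ω y ∂Measure.pi fun _ : ι => ν := fun ω => by
    rw [Complex.ofReal_prod]
    simp only [← integral_cexp_trig hsym]
    rw [← integral_fintype_prod_eq_prod (μ := fun _ : ι => ν)
      (fun (i : ι) (p : ℝ × ℝ) => cexp ((p.1 * l i ω + p.2 : ℝ) * I))]
    refine integral_congr_ae (Filter.Eventually.of_forall fun y => ?_)
    simp only [hF]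
    rw [← Complex.exp_sum, ← Complex.exp_add]
    congr 1
    push_cast
    simp only [add_mul, Finset.sum_mul, Finset.sum_add_distrib]
    ring
  have hFm : Measurable (Function.uncurry F) := by
    simp only [hF, Function.uncurry_def]
    fun_prop
  have hFi : Integrable (Function.uncurry F) (P.prod (Measure.pi fun _ : ι => ν)) :=
    Integrable.mono' (integrable_const (1 : ℝ)) hFm.aestronglyMeasurable
      (Filter.Eventually.of_forall fun z => by
        simp [hF, Function.uncurry_def, Complex.norm_exp])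
  have key : ((∫ ω, ∏ i, trigPot ν (l i ω) ∂P : ℝ) : ℂ) =
      ∫ y, cexp ((∑ i, (y i).2 : ℝ) * I) * (Real.exp (-S fun i => (y i).1) : ℂ)
        ∂Measure.pi fun _ : ι => ν := by
    rw [← integral_complex_ofReal]
    simp only [hp]
    rw [integral_integral_swap hFi]
    refine integral_congr_ae (Filter.Eventually.of_forall fun y => ?_)
    simp only [hF]
    rw [integral_const_mul, hS fun i => (y i).1]
  have hm : Measurable fun y : ι → ℝ × ℝ =>
      cexp ((∑ i, (y i).2 : ℝ) * I) * (Real.exp (-S fun i => (y i).1) : ℂ) := by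
    have e : (fun y : ι → ℝ × ℝ => (Real.exp (-S fun i => (y i).1) : ℂ)) =
        fun y => ∫ ω, cexp ((∑ i, (y i).1 * l i ω : ℝ) * I) ∂P :=
      funext fun y => (hS fun i => (y i).1).symm
    refine Measurable.mul (by fun_prop) ?_
    rw [e]
    have hm2 : Measurable fun z : (ι → ℝ × ℝ) × Ω =>
        cexp ((∑ i, (z.1 i).1 * l i z.2 : ℝ) * I) := by fun_prop
    exact (hm2.stronglyMeasurable.integral_prod_right' (ν := P)).measurable
  have hb : ∀ y : ι → ℝ × ℝ,
      ‖cexp ((∑ i, (y i).2 : ℝ) * I) * (Real.exp (-S fun i => (y i).1) : ℂ)‖ ≤ 1 := fun y => by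
    rw [norm_mul, Complex.norm_exp_ofReal_mul_I, one_mul, ← hS fun i => (y i).1]
    refine (norm_integral_le_of_norm_le_const (C := 1) (Filter.Eventually.of_forall fun ω => ?_)).trans
      (by simp)
    rw [Complex.norm_exp_ofReal_mul_I]
  have hint := Integrable.mono' (μ := Measure.pi fun _ : ι => ν) (integrable_const (1 : ℝ))
    hm.aestronglyMeasurable (Filter.Eventually.of_forall hb)
  have h2 := congrArg RCLike.re key
  rw [← integral_re hint] at h2
  simp only [RCLike.re_to_complex, Complex.ofReal_re, Complex.re_mul_ofReal,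
    Complex.exp_ofReal_mul_I_re] at h2
  exact h2

/-- The damped cosine integral of a family of vectors. -/
noncomputable def trigMom {E : Type} [NormedAddCommGroup E] [InnerProductSpace ℝ E] {n : ℕ}
    (ν : Measure (ℝ × ℝ)) (u : Fin n → E) : ℝ :=
  ∫ y, Real.cos (∑ i, (y i).2) * Real.exp (-(‖∑ i, (y i).1 • u i‖ ^ 2 / 2))
    ∂Measure.pi fun _ : Fin n => ν

variable {E : Type} [NormedAddCommGroup E] [InnerProductSpace ℝ E] [FiniteDimensional ℝ E]
  [MeasurableSpace E] [BorelSpace E]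

lemma integral_prod_inner (hsym : ν.map Neg.neg = ν) {n : ℕ} (u : Fin n → E) :
    ∫ g, ∏ i, trigPot ν ⟪g, u i⟫ ∂stdGaussian E = trigMom ν u := by
  refine integral_prod_trigPot hsym (l := fun i (g : E) => ⟪g, u i⟫) (fun i => by fun_prop)
    (S := fun t => ‖∑ i, t i • u i‖ ^ 2 / 2) fun t => ?_
  have e : ∀ g : E, ∑ i, t i * ⟪g, u i⟫ = ⟪g, ∑ i, t i • u i⟫ := fun g => by
    simp [inner_sum, real_inner_smul_right]
  simp only [e]
  rw [integral_cexp_inner, Complex.ofReal_exp]
  push_cast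
  ring_nf

lemma corr_eq (hsym : ν.map Neg.neg = ν) {q : ℝ} (hq : q ∈ Set.Icc (-1 : ℝ) 1) :
    corr (trigPot ν) q = ∫ y : Fin 2 → ℝ × ℝ, Real.cos (∑ i, (y i).2) *
      Real.exp (-(((y 0).1 ^ 2 + 2 * q * (y 0).1 * (y 1).1 + (y 1).1 ^ 2) / 2))
        ∂Measure.pi fun _ : Fin 2 => ν := by
  set r := Real.sqrt (1 - q ^ 2) with hr
  have hr2 : r ^ 2 = 1 - q ^ 2 := Real.sq_sqrt (by nlinarith [hq.1, hq.2])
  have h := integral_prod_trigPot hsym (P := (gaussianReal 0 1).prod (gaussianReal 0 1))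
    (l := ![fun p : ℝ × ℝ => p.1, fun p => q * p.1 + r * p.2])
    (fun i => by fin_cases i <;> simp <;> fun_prop)
    (S := fun t => (t 0 ^ 2 + 2 * q * t 0 * t 1 + t 1 ^ 2) / 2) fun t => ?_
  · simpa [Fin.prod_univ_two, corr, hr] using h
  · have e : ∀ p : ℝ × ℝ, cexp ((∑ i, t i *
        ![fun p : ℝ × ℝ => p.1, fun p => q * p.1 + r * p.2] i p : ℝ) * I) =
        cexp (((t 0 + t 1 * q) * p.1 : ℝ) * I) * cexp (((t 1 * r) * p.2 : ℝ) * I) := fun p => by
      rw [← Complex.exp_add, Fin.sum_univ_two]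
      congr 1
      simp
      ring
    simp only [e]
    rw [integral_prod_mul (fun z : ℝ => cexp (((t 0 + t 1 * q) * z : ℝ) * I))
      (fun z : ℝ => cexp (((t 1 * r) * z : ℝ) * I)), integral_cexp_gaussian, integral_cexp_gaussian,
      ← Complex.exp_add, Complex.ofReal_exp]
    congr 1
    have hq2 : (r : ℂ) ^ 2 = 1 - (q : ℂ) ^ 2 := by exact_mod_cast hr2
    push_cast
    linear_combination (-((t 1 : ℂ) ^ 2) / 2) * hq2

lemma trigMom_two (hsym : ν.map Neg.neg = ν) {u : Fin 2 → E} (hu : ∀ i, ‖u i‖ = 1) :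
    trigMom ν u = corr (trigPot ν) ⟪u 0, u 1⟫ := by
  have hq : ⟪u 0, u 1⟫ ∈ Set.Icc (-1 : ℝ) 1 := by
    have := abs_real_inner_le_norm (u 0) (u 1)
    rw [hu, hu, one_mul] at this
    exact abs_le.1 this
  rw [corr_eq hsym hq]
  refine integral_congr_ae (Filter.Eventually.of_forall fun y => ?_)
  simp only [Fin.sum_univ_two, norm_add_sq_real, norm_smul, mul_pow, Real.norm_eq_abs, sq_abs, hu,
    real_inner_smul_left, real_inner_smul_right]
  ring_nf

end Vale.Agent.P157.Small
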